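import Vale.Agent.P302.Defs
import Vale.Agent.P302.Reduce

open Vale.Agent.P302

theorem Vale.Agent.Results.P302.A_full.result :
    (¬ ∀ (n : ℕ) (a : Fin n → ℚ), (∀ i, 0 < a i ∧ a i ≤ 1) → (OPT a : ℤ) ≤ ⌈LP a⌉ + 1) ∧
    (∀ c : ℕ, ∃ (n : ℕ) (a : Fin n → ℚ), (∀ i, 1 / 4 < a i ∧ a i < 1 / 2) ∧
      ⌈LP a⌉ + (c : ℤ) < (OPT a : ℤ)) := by
  refine ⟨?_, unbounded_gap⟩
  intro h
  obtain ⟨n, a, h1, h2⟩ := unbounded_gap 1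
  have h3 := h n a (fun i => ⟨by linarith [(h1 i).1], by linarith [(h1 i).2]⟩)
  push_cast at h2
  linarith
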